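import Vale.Agent.P095U65.Top101

/-! The question of Kirchberg and Rordam, for the Jiang-Su algebra as Jiang and Su describe it, the
spatial tensor product, and the central sequence algebra as a subalgebra of the norm ultrapower. -/

namespace Vale.Agent.Results.P101.AJiangSu

universe u

open Vale.Agent.P101S

/-- (1) There is a simple monotracial inductive limit `Z` of prime dimension drop algebras.
(2) Any two such algebras are isomorphic; they are separable, nuclear and infinite dimensional.
(3) For such a `Z` and a nonzero unital `A` there is a spatial tensor product `A ⊗ Z`; if `A` is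
separable, then `F_ω(A)` has no characters if and only if `A` is isomorphic to `A ⊗ Z`. -/
theorem result : (∃ (Z : Type u) (_ : CStarAlgebra Z), IsJS Z) ∧
    ∀ (Z : Type u) [CStarAlgebra Z], IsJS Z →
      (∀ (Z' : Type u) [CStarAlgebra Z'], IsJS Z' → Iso Z Z') ∧ Listed Z ∧
      ∀ (A : Type u) [CStarAlgebra A], Nontrivial A →
        (∃ (B : Type u) (_ : NonUnitalCStarAlgebra B) (T : Bil A Z B), IsSpatial T) ∧
        ∀ (B : Type u) [NonUnitalCStarAlgebra B] (T : Bil A Z B), IsSpatial T →
          TopologicalSpace.SeparableSpace A → ∀ ω : Ultrafilter ℕ,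
            (ω : Filter ℕ) ≤ Filter.cofinite → (NoChar A ω ↔ Iso A B) :=
  ⟨exists_isJS, fun Z _ hZ => ⟨fun _ _ hZ' => hZ.iso hZ', hZ.listed, fun A _ hA =>
    ⟨exists_spatial A Z, fun _ _ _ hT hS ω hω => hZ.iff hA hS hT ω hω⟩⟩⟩

end Vale.Agent.Results.P101.AJiangSu
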